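/-
P235-LL (helper40), row SYS: from the rows of the graph half to `RowSys`.
-/
import Vale.Agent.P235.LL.H611.GRows
import Vale.Agent.P235.LL.H565.Asm

set_option linter.all false
set_option autoImplicit false

namespace Vale.Agent.P235.LL

open SimpleGraph

/-- the field `step` of `Sys` for the good domains, with the constant `K` -/
def StepK {V : Type} (G : SimpleGraph V) (ℓ : Sym2 V → ℝ) (K : ℝ) : Prop :=
  ∀ D, GD G ℓ D → ∀ k j, ∃ ψ : V → V → ℝ, IsL1 ψ ∧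
    (∀ a ∈ D.vis k j, ∀ b ∈ D.vis k j, ψ a b = 0) ∧
    (∀ a ∈ D.vis k (j + 1), ∀ b ∈ D.vis k (j + 1), ψ a b ≤ pathDist G ℓ a b) ∧
    (∀ a ∈ D.vis k (j + 1), ∀ b ∈ D.vis k (j + 1),
      min (pathDist G ℓ a b) (dto G ℓ (D.vis k j) a + dto G ℓ (D.vis k j) b) ≤ K * ψ a b)

/-- the system of domains of a plane graph without cut vertex, for any constant `K` -/
theorem sys_of (h1 : RowCoords) (h2 : RowIsDom) (h3 : RowChild) (h5 : RowStart) {V : Type}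
    [Finite V] {G : SimpleGraph V} {ℓ : Sym2 V → ℝ} (hs : Std G ℓ) {K : ℝ} (hK : StepK G ℓ K) :
    ∃ (S : Sys G ℓ K) (r r' : V),
      ∀ x, x ≠ r → x ≠ r' → ∃ D, S.Good D ∧ D.U = compSet G {r, r'} x := by
  have hchild : ∀ D, GD G ℓ D → ∀ k j, ∀ x ∉ D.vis k (j + 1), ∃ D', GD G ℓ D' ∧
      D'.U = compSet G (D.vis k (j + 1)) x ∧ Link G D D' k (j + 1) := by
    intro D hD k j x hx
    obtain ⟨P', w', hG, hnb, hpc⟩ := h3 V G ℓ hs D hD k j x hx
    obtain ⟨D', hU, hP, hw, hD'⟩ := h1 V G ℓ hs _ P' w' hG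
    refine ⟨D', hD', hU, ⟨fun v b hd => ?_, fun i => ?_⟩⟩
    · obtain ⟨hv, hb, hvb⟩ := hd
      rw [hU] at hv hb
      obtain ⟨i, hi⟩ := hG.cover v hv b hb hvb
      exact hnb i b hi
    · rw [hP, hw]
      exact hpc i
  have hne : ∃ r r', G.Adj r r' := by
    have hcard := hs.card
    have hn : Nontrivial V := (Finite.one_lt_card_iff_nontrivial).1 (by omega)
    obtain ⟨a, b, hab⟩ := hn.exists_pair_ne
    obtain ⟨p⟩ := hs.conn.preconnected a b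
    cases p with
    | nil => exact absurd rfl hab
    | cons h _ => exact ⟨_, _, h⟩
  obtain ⟨r, r', hrr⟩ := hne
  refine ⟨⟨GD G ℓ, h2 V G ℓ hs, hchild, hK⟩, r, r', fun x hr hr' => ?_⟩
  obtain ⟨P, w, hG⟩ := h5 V G ℓ hs r r' hrr x hr hr'
  obtain ⟨D, hU, -, -, hD⟩ := h1 V G ℓ hs _ P w hG
  exact ⟨D, hD, hU⟩

/-- **SYS** -/
theorem rowSys_of (h1 : RowCoords) (h2 : RowIsDom) (h3 : RowChild) (h4 : RowTE)
    (h5 : RowStart) : RowSys := by
  obtain ⟨C, hC, h4⟩ := h4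
  refine ⟨C, hC, fun V _ G ℓ hc hp hcard hcut hℓ => ?_⟩
  have hs : Std G ℓ := ⟨hc, hℓ, hcard, hcut, hp⟩
  exact sys_of h1 h2 h3 h5 hs (h4 V G ℓ hs)

/-- the whole theorem from the rows -/
theorem pl_of_rows (p : RowProcess) (h1 : RowCoords) (h2 : RowIsDom) (h3 : RowChild) (h4 : RowTE)
    (h5 : RowStart) : PL :=
  planar_main p (rowSys_of h1 h2 h3 h4 h5)

end Vale.Agent.P235.LL
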